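import Vale.Agent.P370Z.PT.EncQ
import Vale.Agent.P315.H155.Auto

/-!
# P370: rational arithmetic in polynomial time

All lemmas are in contextual form and most of them are tagged for `fun_prop`.
-/

namespace Vale.Agent.P370Z.PTQ

open Vale.Agent.Lib.PolyTime

variable {A : Set Vale.Agent.Lib.PolyTime.Word} {α β γ : Type*} [Enc α] [Enc β] [Enc γ]

attribute [fun_prop] PT.intLt PT.intLe PT.intEq PT.intPow PT.intSumRange PT.natSumRange

theorem PT_ratAux {f : α → ℚ} (hf : PT A f) : PT A (fun a => ((f a).num, (f a).den)) := by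
  obtain ⟨g, hg, hg'⟩ := hf
  exact ⟨g, hg, fun a => hg' a⟩

@[fun_prop]
theorem PT_num {f : α → ℚ} (hf : PT A f) : PT A (fun a => (f a).num) := (PT_ratAux hf).fst

@[fun_prop]
theorem PT_den {f : α → ℚ} (hf : PT A f) : PT A (fun a => (f a).den) := (PT_ratAux hf).snd

theorem PT_rat_of {f : α → ℚ} (h1 : PT A (fun a => (f a).num)) (h2 : PT A (fun a => (f a).den)) :
    PT A f := by
  obtain ⟨g, hg, hg'⟩ := h1.pair h2
  exact ⟨g, hg, fun a => hg' a⟩

@[fun_prop]
theorem PT_mkRat {n : α → ℤ} {d : α → ℕ} (hn : PT A n) (hd : PT A d) :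
    PT A (fun a => mkRat (n a) (d a)) := by
  have hg : PT A (fun a => (d a).gcd (n a).natAbs) := hd.gcd hn.natAbs
  have h0 : PT A (fun a => decide (d a = 0)) := hd.eqNat (PT.const 0)
  refine PT_rat_of ((PT.ite h0 (PT.const (0 : ℤ)) (hn.intDivNat hg)).congr fun a => ?_)
    ((PT.ite h0 (PT.const (1 : ℕ)) (hd.div hg)).congr fun a => ?_)
  · rw [Rat.num_mkRat]
  · rw [Rat.den_mkRat]

@[fun_prop]
theorem PT_intCast {f : α → ℤ} (hf : PT A f) : PT A (fun a => (f a : ℚ)) :=
  PT_rat_of (hf.congr fun a => by simp) ((PT.const 1).congr fun a => by simp)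

@[fun_prop]
theorem PT_natCast {f : α → ℕ} (hf : PT A f) : PT A (fun a => (f a : ℚ)) :=
  (PT_intCast hf.natCast).congr fun a => by simp

@[fun_prop]
theorem PT_ratNeg {f : α → ℚ} (hf : PT A f) : PT A (fun a => - f a) :=
  PT_rat_of ((PT_num hf).intNeg.congr fun a => by simp) ((PT_den hf).congr fun a => by simp)

theorem den_ne (q : ℚ) : (q.den : ℚ) ≠ 0 := by exact_mod_cast q.den_nz

@[fun_prop]
theorem PT_ratAdd {f g : α → ℚ} (hf : PT A f) (hg : PT A g) : PT A (fun a => f a + g a) := by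
  refine (PT_mkRat (((PT_num hf).intMul (PT_den hg).natCast).intAdd
    ((PT_num hg).intMul (PT_den hf).natCast)) ((PT_den hf).mul (PT_den hg))).congr fun a => ?_
  rw [Rat.mkRat_eq_div]
  conv_rhs => rw [← Rat.num_div_den (f a), ← Rat.num_div_den (g a)]
  have h1 := den_ne (f a)
  have h2 := den_ne (g a)
  push_cast
  field_simp

@[fun_prop]
theorem PT_ratSub {f g : α → ℚ} (hf : PT A f) (hg : PT A g) : PT A (fun a => f a - g a) :=
  (PT_ratAdd hf (PT_ratNeg hg)).congr fun a => by ring

@[fun_prop]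
theorem PT_ratMul {f g : α → ℚ} (hf : PT A f) (hg : PT A g) : PT A (fun a => f a * g a) := by
  refine (PT_mkRat ((PT_num hf).intMul (PT_num hg)) ((PT_den hf).mul (PT_den hg))).congr
    fun a => ?_
  rw [Rat.mkRat_eq_div]
  conv_rhs => rw [← Rat.num_div_den (f a), ← Rat.num_div_den (g a)]
  push_cast
  rw [div_mul_div_comm]

@[fun_prop]
theorem PT_ratInv {f : α → ℚ} (hf : PT A f) : PT A (fun a => (f a)⁻¹) := by
  have h1 : PT A (fun a => mkRat ((f a).den : ℤ) (f a).num.natAbs) :=
    PT_mkRat (PT_den hf).natCast (PT_num hf).natAbs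
  refine (PT.ite (PT_num hf).intNeg' (PT_ratNeg h1) h1).congr fun a => ?_
  rw [Rat.mkRat_eq_div]
  conv_rhs => rw [← Rat.num_div_den (f a), inv_div]
  split_ifs with h
  · have e : (((f a).num.natAbs : ℕ) : ℚ) = -((f a).num : ℚ) := by
      have : (((f a).num.natAbs : ℕ) : ℤ) = -(f a).num := by omega
      rw [← Int.cast_natCast, this, Int.cast_neg]
    rw [e, div_neg, neg_neg]
    simp
  · have e : (((f a).num.natAbs : ℕ) : ℚ) = ((f a).num : ℚ) := by
      have : (((f a).num.natAbs : ℕ) : ℤ) = (f a).num := by omega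
      rw [← Int.cast_natCast, this]
    rw [e]
    simp

@[fun_prop]
theorem PT_ratDiv {f g : α → ℚ} (hf : PT A f) (hg : PT A g) : PT A (fun a => f a / g a) :=
  (PT_ratMul hf (PT_ratInv hg)).congr fun _ => (div_eq_mul_inv _ _).symm

/-- Power with a polynomially bounded exponent. -/
@[fun_prop]
theorem PT_ratPow {f : α → ℚ} {g : α → ℕ} (hf : PT A f) (hg : PT A g) (hb : PBd g) :
    PT A (fun a => f a ^ g a) :=
  PT_rat_of ((PT.intPow (PT_num hf) hg hb).congr fun _ => (Rat.num_pow _ _).symm)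
    ((PT.pow (PT_den hf) hg hb).congr fun _ => (Rat.den_pow _ _).symm)

@[fun_prop]
theorem PT_ratPowConst {f : α → ℚ} (hf : PT A f) (k : ℕ) : PT A (fun a => f a ^ k) :=
  PT_ratPow hf (PT.const k) (PBd.const k)

@[fun_prop]
theorem PT_ratLt {f g : α → ℚ} (hf : PT A f) (hg : PT A g) :
    PT A (fun a => decide (f a < g a)) :=
  (PT_num (PT_ratSub hf hg)).intNeg'.congr fun a =>
    decide_eq_decide.2 (by rw [Rat.num_neg, sub_neg])

@[fun_prop]
theorem PT_ratLe {f g : α → ℚ} (hf : PT A f) (hg : PT A g) :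
    PT A (fun a => decide (f a ≤ g a)) :=
  (PT_ratLt hg hf).not.congr fun a => by
    rw [← _root_.decide_not]
    exact decide_eq_decide.2 not_lt

@[fun_prop]
theorem PT_ratEq {f g : α → ℚ} (hf : PT A f) (hg : PT A g) :
    PT A (fun a => decide (f a = g a)) :=
  ((PT_ratLe hf hg).and (PT_ratLe hg hf)).congr fun a => by
    rw [← Bool.decide_and]
    exact decide_eq_decide.2 le_antisymm_iff.symm

@[fun_prop]
theorem PT_floor {f : α → ℚ} (hf : PT A f) : PT A (fun a => ⌊f a⌋) :=
  ((PT_num hf).intDivNat (PT_den hf)).congr fun _ => Rat.floor_def'.symm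

@[fun_prop]
theorem PT_ceil {f : α → ℚ} (hf : PT A f) : PT A (fun a => ⌈f a⌉) :=
  (PT_floor (PT_ratNeg hf)).intNeg.congr fun a => by rw [Int.floor_neg, neg_neg]

@[fun_prop]
theorem PT_fract {f : α → ℚ} (hf : PT A f) : PT A (fun a => Int.fract (f a)) :=
  (PT_ratSub hf (PT_intCast (PT_floor hf))).congr fun _ => rfl

@[fun_prop]
theorem PT_ratAbs {f : α → ℚ} (hf : PT A f) : PT A (fun a => |f a|) :=
  (PT.ite (PT_ratLt hf (PT.const 0)) (PT_ratNeg hf) hf).congr fun a => by
    split_ifs with h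
    · exact (abs_of_neg h).symm
    · exact (abs_of_nonneg (not_lt.1 h)).symm

@[fun_prop]
theorem PT_intAbs {f : α → ℤ} (hf : PT A f) : PT A (fun a => |f a|) :=
  hf.natAbs.natCast.congr fun _ => Int.natCast_natAbs _

@[fun_prop]
theorem PT_ratMax {f g : α → ℚ} (hf : PT A f) (hg : PT A g) : PT A (fun a => max (f a) (g a)) :=
  (PT.ite (PT_ratLe hf hg) hg hf).congr fun _ => (max_def _ _).symm

@[fun_prop]
theorem PT_ratMin {f g : α → ℚ} (hf : PT A f) (hg : PT A g) : PT A (fun a => min (f a) (g a)) :=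
  (PT.ite (PT_ratLe hf hg) hf hg).congr fun _ => (min_def _ _).symm

/-! ### Sums and products -/

theorem list_sum_eq (l : List ℚ) (P : ℕ) (hP : P ≠ 0) (h : ∀ q ∈ l, q.den ∣ P) :
    mkRat (l.map fun q => q.num * ((P / q.den : ℕ) : ℤ)).sum P = l.sum := by
  rw [Rat.mkRat_eq_div]
  have hP' : (P : ℚ) ≠ 0 := by exact_mod_cast hP
  induction l with
  | nil => simp
  | cons q l ih =>
    rw [List.map_cons, List.sum_cons, List.sum_cons, Int.cast_add, add_div,
      ih fun q' hq' => h q' (List.mem_cons_of_mem _ hq')]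
    congr 1
    obtain ⟨c, hc⟩ := h q List.mem_cons_self
    have h1 : P / q.den = c := by rw [hc, Nat.mul_div_cancel_left _ q.den_pos]
    have h2 : (c : ℚ) ≠ 0 := by
      rintro h0
      have : c = 0 := by exact_mod_cast h0
      rw [this, mul_zero] at hc
      exact hP hc
    rw [h1]
    conv_rhs => rw [← Rat.num_div_den q]
    rw [hc]
    have h3 := den_ne q
    push_cast
    field_simp

@[fun_prop]
theorem PT_ratListSum {l : α → List ℚ} (hl : PT A l) : PT A (fun a => (l a).sum) := by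
  have hP : PT A (fun a => ((l a).map fun q => q.den).prod) :=
    PT.prod (PT.map (f := fun _ q => q.den) hl (PT_den PT.snd'))
  have hS : PT A (fun a => ((l a).map fun q =>
      q.num * (((((l a).map fun q => q.den).prod) / q.den : ℕ) : ℤ)).sum) :=
    PT.intSumMap (f := fun a q => q.num * (((((l a).map fun q => q.den).prod) / q.den : ℕ) : ℤ))
      hl ((PT_num PT.snd').intMul ((hP.comp PT.fst').div (PT_den PT.snd')).natCast)
  refine (PT_mkRat hS hP).congr fun a => list_sum_eq _ _ ?_ fun q hq => ?_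
  · refine List.prod_ne_zero fun h => ?_
    obtain ⟨q, -, hq⟩ := List.mem_map.1 h
    exact q.den_nz hq
  · exact List.dvd_prod (List.mem_map_of_mem hq)

@[fun_prop]
theorem PT_intListProd {l : α → List ℤ} (hl : PT A l) : PT A (fun a => (l a).prod) := by
  have hN : PT A (fun a => (l a).map fun z => z.natAbs) :=
    PT.map (f := fun _ z => z.natAbs) hl PT.snd'.natAbs
  have key : ∀ l : List ℤ, l.prod.natAbs = (l.map fun z => z.natAbs).prod := by
    intro l
    induction l with
    | nil => rfl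
    | cons z l ih => simp [Int.natAbs_mul, ih]
  refine (PT.foldl (init := fun _ => (1 : ℤ)) (f := fun _ s x => s * x) hl (PT.const 1)
    (PT.snd'.fst.intMul PT.snd'.snd) (b := fun a => esize ((l a).map fun z => z.natAbs) + 4)
    (hN.pbd.add (PBd.const 4)) fun a i => ?_).congr fun a => List.prod_eq_foldl.symm
  rw [← List.prod_eq_foldl, esize_int, key, ← esize_nat]
  have h1 := esize_prod_le (((l a).take i).map fun z => z.natAbs)
  have h2 := esize_take_le i ((l a).map fun z => z.natAbs)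
  rw [List.map_take] at h1
  rw [List.map_take]
  omega

@[fun_prop]
theorem PT_ratListProd {l : α → List ℚ} (hl : PT A l) : PT A (fun a => (l a).prod) := by
  have hP : PT A (fun a => ((l a).map fun q => q.den).prod) :=
    PT.prod (PT.map (f := fun _ q => q.den) hl (PT_den PT.snd'))
  have hS : PT A (fun a => ((l a).map fun q => q.num).prod) :=
    PT_intListProd (PT.map (f := fun _ q => q.num) hl (PT_num PT.snd'))
  refine (PT_mkRat hS hP).congr fun a => ?_
  rw [Rat.mkRat_eq_div]
  induction l a with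
  | nil => simp
  | cons q l ih =>
    simp only [List.map_cons, List.prod_cons]
    rw [← ih]
    conv_rhs => rw [← Rat.num_div_den q]
    push_cast
    rw [div_mul_div_comm]

theorem prod_map_range {M : Type*} [CommMonoid M] (f : ℕ → M) (n : ℕ) :
    ((List.range n).map f).prod = ∏ i ∈ Finset.range n, f i := by
  induction n with
  | zero => simp
  | succ n ih => rw [List.range_succ, Finset.prod_range_succ]; simp [ih]

/-- Sum over a polynomially bounded range. -/
@[fun_prop]
theorem PT_ratSumRange {k : α → ℕ} {f : α → ℕ → ℚ} (hk : PT A k) (hkb : PBd k)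
    (hf : PT A (fun p : α × ℕ => f p.1 p.2)) :
    PT A (fun a => ∑ i ∈ Finset.range (k a), f a i) :=
  (PT_ratListSum (PT.map (PT.range hk hkb) hf)).congr fun _ => sum_map_range _ _

/-- Product over a polynomially bounded range. -/
@[fun_prop]
theorem PT_ratProdRange {k : α → ℕ} {f : α → ℕ → ℚ} (hk : PT A k) (hkb : PBd k)
    (hf : PT A (fun p : α × ℕ => f p.1 p.2)) :
    PT A (fun a => ∏ i ∈ Finset.range (k a), f a i) :=
  (PT_ratListProd (PT.map (PT.range hk hkb) hf)).congr fun _ => prod_map_range _ _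

@[fun_prop]
theorem PT_natProdRange {k : α → ℕ} {f : α → ℕ → ℕ} (hk : PT A k) (hkb : PBd k)
    (hf : PT A (fun p : α × ℕ => f p.1 p.2)) :
    PT A (fun a => ∏ i ∈ Finset.range (k a), f a i) :=
  (PT.prod (PT.map (PT.range hk hkb) hf)).congr fun _ => prod_map_range _ _

/-- A sum over a polynomially bounded range of polynomially bounded terms. -/
theorem PBd_sumRange {k b : α → ℕ} {f : α → ℕ → ℕ} (hk : PBd k) (hb : PBd b)
    (h : ∀ a i, i < k a → f a i ≤ b a) : PBd (fun a => ∑ i ∈ Finset.range (k a), f a i) :=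
  (hk.mul hb).mono fun a => by
    have := Finset.sum_le_card_nsmul (Finset.range (k a)) (f a) (b a)
      fun i hi => h a i (Finset.mem_range.1 hi)
    simpa using this

/-- A sum over a list of polynomially bounded terms. -/
theorem PBd_sumList {δ : Type*} {l : α → List δ} {b : α → ℕ} {f : α → δ → ℕ}
    (hl : PBd fun a => (l a).length) (hb : PBd b) (h : ∀ a, ∀ x ∈ l a, f a x ≤ b a) :
    PBd (fun a => ((l a).map (f a)).sum) :=
  (hl.mul hb).mono fun a => by
    have := List.sum_le_card_nsmul ((l a).map (f a)) (b a) fun x hx => by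
      obtain ⟨y, hy, rfl⟩ := List.mem_map.1 hx
      exact h a y hy
    simpa using this

@[fun_prop]
theorem PBd_sqrt {f : α → ℕ} (hf : PBd f) : PBd (fun a => Nat.sqrt (f a)) :=
  hf.mono fun _ => Nat.sqrt_le_self _

@[fun_prop]
theorem PBd_size {f : α → ℕ} (hf : PT ∅ f) : PBd (fun a => Nat.size (f a)) :=
  hf.pbd.mono fun a => by rw [esize_nat]

/-- `c ^ size f` is polynomially bounded if `f` is. -/
theorem PBd_pow_size {f : α → ℕ} (hf : PBd f) (c : ℕ) : PBd (fun a => c ^ Nat.size (f a)) := by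
  refine ((((PBd.const 2).mul hf).add (PBd.const 1)).pow c).mono fun a => ?_
  have h1 : 2 ^ Nat.size (f a) ≤ 2 * f a + 1 := by
    rcases Nat.eq_zero_or_pos (f a) with h | h
    · simp [h]
    · have h2 : 0 < Nat.size (f a) := Nat.size_pos.2 h
      have h3 : 2 ^ (Nat.size (f a) - 1) ≤ f a := Nat.lt_size.1 (by omega)
      have h4 : 2 ^ Nat.size (f a) = 2 * 2 ^ (Nat.size (f a) - 1) := by
        rw [← pow_succ']; congr 1; omega
      omega
  calc c ^ Nat.size (f a) ≤ (2 ^ c) ^ Nat.size (f a) :=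
        Nat.pow_le_pow_left Nat.lt_two_pow_self.le _
    _ = (2 ^ Nat.size (f a)) ^ c := by rw [← pow_mul, ← pow_mul, mul_comm]
    _ ≤ _ := Nat.pow_le_pow_left h1 _

/-! ### The codes of the statement -/

theorem pairW_eq (x y : Word) : pairW x y = pr x y := by
  induction x with
  | nil => rfl
  | cons b x ih => simp only [pairW, pr, ih]

theorem listW_map {δ : Type*} (f : δ → β) (l : List δ) :
    listW (l.map fun x => enc (f x)) = enc (l.map f) := by
  induction l with
  | nil => rfl
  | cons x l ih => rw [List.map_cons, List.map_cons, enc_cons, listW, pairW_eq, ih]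

theorem ratW_eq (q : ℚ) : ratW q = enc (decide (q.num < 0), q.num.natAbs, q.den, ()) := by
  simp only [ratW, listW, pairW_eq, enc_pair]
  rfl

/-- The code of an object as a raw word. -/
theorem PT_rawEnc {f : α → β} (hf : PT A f) : PT A (fun a => Raw.mk (enc (f a))) := by
  obtain ⟨g, hg, hg'⟩ := hf
  exact ⟨g, hg, fun a => hg' a⟩

@[fun_prop]
theorem PT_ratW {f : α → ℚ} (hf : PT A f) : PT A (fun a => Raw.mk (ratW (f a))) :=
  (PT_rawEnc ((PT_num hf).intNeg'.pair ((PT_num hf).natAbs.pair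
    ((PT_den hf).pair (PT.const ()))))).congr fun a => by rw [ratW_eq]

example : PT ∅ fun p : ℚ × ℤ × ℕ => (p.1 + 1) / (2 * (p.2.1 : ℚ) ^ 3) - ⌊p.1⌋ * (p.2.2 : ℚ) := by
  fun_prop

example : PT ∅ fun p : ℚ × Un => ∑ i ∈ Finset.range p.2.v, (1 / 2) ^ p.2.v * p.1 * i := by
  fun_prop

example : PT ∅ fun p : ℚ × ℤ => if p.1 ≤ 2 ∧ p.2 < 3 then p.1 else |p.1| := by
  fun_prop

end Vale.Agent.P370Z.PTQ
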