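import Vale.Agent.P370Z.PT.Rat
import Vale.Agent.Lib.PolyTime.OfTM2

/-!
# P370: from the typed polynomial time layer to the machines of the statement
-/

namespace Vale.Agent.P370Z

open Vale.Agent.Lib.PolyTime (PT PBd Un Raw FP enc)

namespace PTQ

theorem polyTime_iff {f : Word → Word} : PolyTime f ↔ FP ∅ f := by
  constructor
  · rintro ⟨M, -⟩
    exact Vale.Agent.Lib.PolyTime.OfTM2.FP_of_tm2 M
  · intro h
    exact Vale.Agent.Lib.PolyTime.exists_tm2_of_polyTimeFun (fun w : Word => w) (fun w : Word => w)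
      f f (Vale.Agent.Lib.PolyTime.polyTimeFun_iff.2 h) fun _ => rfl

/-- The type whose codes are the descriptions of verifiers. -/
abbrev VT : Type := Un × Un × ℕ × List (ℕ × ℕ × ℕ × Unit) × Unit

def toVT (V : Verifier) : VT :=
  (⟨V.w⟩, ⟨V.a⟩, V.out, V.gates.map fun g => (g.data.1, g.data.2.1, g.data.2.2, ()), ())

def conv (t : VT) : CD :=
  (t.1, t.2.1, t.2.2.1, t.2.2.2.1.map fun g => (g.1, g.2.1, g.2.2.1))

theorem conv_toVT (V : Verifier) : conv (toVT V) = V.cd := by
  simp [conv, toVT, Verifier.cd, Function.comp_def]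

theorem code_eq (V : Verifier) : V.code = enc (toVT V) := by
  have h : (fun g : Gate (V.w + V.a) =>
      listW [g.data.1.bits, g.data.2.1.bits, g.data.2.2.bits]) =
      fun g => enc (g.data.1, g.data.2.1, g.data.2.2, ()) := by
    funext g
    simp only [listW, pairW_eq]
    rfl
  unfold Verifier.code
  rw [h, listW_map]
  simp only [listW, pairW_eq]
  rfl

theorem inst_code_eq (I : Instance) : I.code =
    enc (I.nuclei.map (fun n => (Raw.mk (ratW n.1.1), Raw.mk (ratW n.1.2.1),
      Raw.mk (ratW n.1.2.2), n.2, ())), Un.mk I.N, Raw.mk (ratW I.a), Raw.mk (ratW I.b), ()) := by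
  have h : (fun n : (ℚ × ℚ × ℚ) × ℕ => listW [ratW n.1.1, ratW n.1.2.1, ratW n.1.2.2, n.2.bits]) =
      fun n => enc (Raw.mk (ratW n.1.1), Raw.mk (ratW n.1.2.1), Raw.mk (ratW n.1.2.2), n.2,
        ()) := by
    funext n
    simp only [listW, pairW_eq]
    rfl
  unfold Instance.code
  rw [h, listW_map]
  simp only [listW, pairW_eq]
  rfl

theorem pt_conv : PT ∅ conv := by
  unfold conv
  fun_prop

end PTQ

open PTQ in
theorem pt_glue (F : CD → Instance)
    (h1 : PT ∅ fun d => (F d).nuclei) (h2 : PT ∅ fun d => Un.mk (F d).N)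
    (h3 : PT ∅ fun d => (F d).a) (h4 : PT ∅ fun d => (F d).b)
    (V : Word → Verifier) (hV : PolyTime fun x => (V x).code) :
    PolyTime fun x => (F (V x).cd).code := by
  have h5 : PT ∅ fun d => (F d).nuclei.map (fun n => (Raw.mk (ratW n.1.1), Raw.mk (ratW n.1.2.1),
      Raw.mk (ratW n.1.2.2), n.2, ())) := by
    refine PT.map (f := fun _ n => (Raw.mk (ratW n.1.1), Raw.mk (ratW n.1.2.1),
      Raw.mk (ratW n.1.2.2), n.2, ())) h1 ?_
    fun_prop
  have h6 := (h5.pair (h2.pair ((PT_ratW h3).pair ((PT_ratW h4).pair (PT.const ()))))).comp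
    pt_conv
  obtain ⟨g, hg, hg'⟩ := h6
  rw [polyTime_iff] at hV ⊢
  have h7 := hg.comp hV
  have : (fun x => (F (V x).cd).code) = fun x => g (V x).code := by
    funext x
    rw [code_eq, hg', inst_code_eq]
    simp only [conv_toVT]
  rw [this]
  exact h7

end Vale.Agent.P370Z
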