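import Vale.Agent.P370Z.PT.Pot
import Vale.Agent.P370Z.PT.Glue

/-!
# P370: the instance is computable in polynomial time
-/

namespace Vale.Agent.P370Z

open Vale.Agent.Lib.PolyTime (PT PBd Un Raw Enc)
open Vale.Agent.P315.H155

namespace PTQ

variable {α : Type*} [Enc α]

theorem PT_solve {D : α → ℕ} {φ : α → ℚ → ℚ} {ξ : α → ℚ} (hD : PT ∅ D) (hDb : PBd D)
    (hφ : PT ∅ fun p : α × ℚ => φ p.1 p.2) (hξ : PT ∅ ξ) :
    PT ∅ fun a => solve (D a) (φ a) (ξ a) := by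
  unfold solve
  have h1 : PT ∅ fun a => List.range (2 * D a + 1) :=
    PT.range (((PT.const 2).mul hD).add (PT.const 1)) (((PBd.const 2).mul hDb).add (PBd.const 1))
  have hD' : PT ∅ fun p : α × ℕ => (D p.1 : ℚ) := PT_natCast (hD.comp PT.fst')
  have h2 : PT ∅ fun p : α × ℕ =>
      decide (φ p.1 (ξ p.1 + ((p.2 : ℚ) - D p.1) / D p.1) ≤ ξ p.1) :=
    PT_ratLe (hφ.comp (PT.fst'.pair (PT_ratAdd (hξ.comp PT.fst')
      (PT_ratDiv (PT_ratSub (PT_natCast PT.snd') hD') hD')))) (hξ.comp PT.fst')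
  have h3 := PT.takeWhile
    (f := fun a (j : ℕ) => decide (φ a (ξ a + ((j : ℚ) - D a) / D a) ≤ ξ a)) h1 h2
  exact PT_ratAdd hξ (PT_ratDiv (PT_ratSub (PT_natCast h3.length) (PT_natCast hD))
    (PT_natCast hD))

theorem PT_xi {m l n : α → ℕ} (hm : PT ∅ m) (hl : PT ∅ l) (hn : PT ∅ n) :
    PT ∅ fun a => (xi (m a) (l a) (n a) : ℚ) :=
  PT_ratAdd (PT_ratNeg (PT_natCast hl)) (PT_ratDiv
    (PT_ratAdd (PT_ratMul (PT.const 2) (PT_natCast hn)) (PT.const 1))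
    (PT_ratMul (PT.const 6) (PT_natCast hm)))

theorem PT_wt {n : α → ℕ} (hn : PT ∅ n) : PT ∅ fun a => wt (n a) :=
  PT.ite ((hn.mod (PT.const 3)).eqNat (PT.const 1)) (PT.const 2) (PT.const 3)

variable (c : Cst) {d : α → CD}

theorem PT_m (hd : PT ∅ d) : PT ∅ fun a => c.m (d a) := (PT_p c hd).powConst _

theorem PBd_m (hd : PT ∅ d) : PBd fun a => c.m (d a) := (PBd_p c hd).pow _

theorem PT_L (hd : PT ∅ d) : PT ∅ fun a => c.L (d a) := (PT_p c hd).powConst _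

theorem PBd_L (hd : PT ∅ d) : PBd fun a => c.L (d a) := (PBd_p c hd).pow _

theorem PT_Lz (hd : PT ∅ d) : PT ∅ fun a => c.Lz (d a) :=
  ((PT.const 2).mul (PT_L1 c hd)).add (PT.const 2)

theorem PBd_Lz (hd : PT ∅ d) : PBd fun a => c.Lz (d a) :=
  ((PBd.const 2).mul (PBd_L1 c hd)).add (PBd.const 2)

theorem PT_Del (hd : PT ∅ d) : PT ∅ fun a => c.Del (d a) :=
  ((PT.const 6).mul (PT_m c hd)).mul ((PT_p c hd).powConst _)

theorem PBd_Del (hd : PT ∅ d) : PBd fun a => c.Del (d a) :=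
  ((PBd.const 6).mul (PBd_m c hd)).mul ((PBd_p c hd).pow _)

theorem PT_pH (hp : PT ∅ fun n : Un => c.pHat n.v) (hd : PT ∅ d) : PT ∅ fun a => c.pH (d a) :=
  hp.comp (PT.mkUn ((PT_p c hd).powConst (10 * c.km)) ((PBd_p c hd).pow _))

theorem PT_kH (hk : PT ∅ fun n : Un => c.kHat n.v) (hd : PT ∅ d) : PT ∅ fun a => c.kH (d a) :=
  hk.comp (PT.mkUn ((PT_p c hd).powConst (10 * c.km)) ((PBd_p c hd).pow _))

theorem PT_lam (hp : PT ∅ fun n : Un => c.pHat n.v) (hd : PT ∅ d) : PT ∅ fun a => c.lam (d a) :=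
  PT_ratDiv (PT_ratMul (PT.const 512) (PT_ratPowConst (PT_natCast (PT_m c hd)) 3))
    (PT_ratMul (PT_pH c hp hd) (PT.const _))

attribute [local irreducible] Cst.dF Cst.m Cst.L Cst.Lz Cst.Del Cst.rho xi solve

theorem PT_node (hd : PT ∅ d) {i n0 n1 n2 : α → ℕ} (hi : PT ∅ i) (h0 : PT ∅ n0) (h1 : PT ∅ n1)
    (h2 : PT ∅ n2) : PT ∅ fun a => c.node (d a) (i a) (n0 a) (n1 a) (n2 a) := by
  have x0 := PT_xi (PT_m c hd) (PT_L c hd) h0
  have x1 := PT_xi (PT_m c hd) (PT_L c hd) h1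
  have x2 := PT_xi (PT_m c hd) (PT_Lz c hd) h2
  have hd' : PT ∅ fun p : α × ℚ => d p.1 := hd.comp PT.fst'
  have y0 := x0.comp (PT.fst' (α := α) (β := ℚ))
  have y1 := x1.comp (PT.fst' (α := α) (β := ℚ))
  have y2 := x2.comp (PT.fst' (α := α) (β := ℚ))
  have s : PT ∅ fun p : α × ℚ => p.2 := PT.snd'
  unfold Cst.node
  refine PT.pair ?_ (PT.pair ?_ ?_)
  · exact PT_ratAdd (PT.ite (hi.eqNat (PT.const 0))
      (PT_solve (φ := fun a x => x + c.dF (d a) 0 x (xi (c.m (d a)) (c.L (d a)) (n1 a))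
          (xi (c.m (d a)) (c.Lz (d a)) (n2 a)) / c.rho) (PT_Del c hd) (PBd_Del c hd)
        (PT_ratAdd s (PT_ratDiv (PT_dF c 0 hd' s y1 y2) (PT.const _))) x0) x0)
      (PT_ratDiv (PT_natCast hi) (PT_ratMul (PT.const 4) (PT_natCast (PT_Del c hd))))
  · exact PT.ite (hi.eqNat (PT.const 1))
      (PT_solve (φ := fun a x => x + c.dF (d a) 1 (xi (c.m (d a)) (c.L (d a)) (n0 a)) x
          (xi (c.m (d a)) (c.Lz (d a)) (n2 a)) / c.rho) (PT_Del c hd) (PBd_Del c hd)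
        (PT_ratAdd s (PT_ratDiv (PT_dF c 1 hd' y0 s y2) (PT.const _))) x1) x1
  · exact PT.ite (hi.eqNat (PT.const 2))
      (PT_solve (φ := fun a x => x + c.dF (d a) 2 (xi (c.m (d a)) (c.L (d a)) (n0 a))
          (xi (c.m (d a)) (c.L (d a)) (n1 a)) x / c.rho) (PT_Del c hd) (PBd_Del c hd)
        (PT_ratAdd s (PT_ratDiv (PT_dF c 2 hd' y0 y1 s) (PT.const _))) x2) x2

theorem PT_nucleus (hp : PT ∅ fun n : Un => c.pHat n.v) (hd : PT ∅ d) {i n0 n1 n2 : α → ℕ}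
    (hi : PT ∅ i) (h0 : PT ∅ n0) (h1 : PT ∅ n1) (h2 : PT ∅ n2) :
    PT ∅ fun a => c.nucleus (d a) (i a) (n0 a) (n1 a) (n2 a) := by
  have hn := PT_node c hd hi h0 h1 h2
  have hl := PT_lam c hp hd
  exact ((PT_ratDiv hn.fst hl).pair ((PT_ratDiv hn.snd.fst hl).pair
    (PT_ratDiv hn.snd.snd hl))).pair (((PT_wt h0).mul (PT_wt h1)).mul (PT_wt h2))

theorem PT_rangeL (hd : PT ∅ d) : PT ∅ fun a => List.range (6 * c.m (d a) * c.L (d a)) :=
  PT.range (((PT.const 6).mul (PT_m c hd)).mul (PT_L c hd))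
    (((PBd.const 6).mul (PBd_m c hd)).mul (PBd_L c hd))

theorem PT_rangeLz (hd : PT ∅ d) : PT ∅ fun a => List.range (6 * c.m (d a) * c.Lz (d a)) :=
  PT.range (((PT.const 6).mul (PT_m c hd)).mul (PT_Lz c hd))
    (((PBd.const 6).mul (PBd_m c hd)).mul (PBd_Lz c hd))

theorem pt_nuclei (hp : PT ∅ fun n : Un => c.pHat n.v) : PT ∅ fun d : CD => c.nuclei d := by
  unfold Cst.nuclei
  refine PT.flatMap (PT.const _) ?_
  refine PT.flatMap (l := fun p : CD × ℕ => List.range (6 * c.m p.1 * c.L p.1))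
    (PT_rangeL c PT.fst') ?_
  refine PT.flatMap (l := fun p : (CD × ℕ) × ℕ => List.range (6 * c.m p.1.1 * c.L p.1.1))
    (PT_rangeL c PT.fst'.fst) ?_
  refine PT.map (l := fun p : ((CD × ℕ) × ℕ) × ℕ => List.range (6 * c.m p.1.1.1 * c.Lz p.1.1.1))
    (PT_rangeLz c PT.fst'.fst.fst) ?_
  exact PT_nucleus c hp PT.fst'.fst.fst.fst PT.fst'.fst.fst.snd PT.fst'.fst.snd PT.fst'.snd PT.snd'

theorem PT_E0 (hp : PT ∅ fun n : Un => c.pHat n.v) (hk : PT ∅ fun n : Un => c.kHat n.v)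
    (hd : PT ∅ d) : PT ∅ fun a => c.E0 (d a) :=
  PT_ratSub (PT_ratAdd (PT_ratNeg (PT_ratMul (PT_ratMul (PT_ratMul (PT_ratMul (PT.const _)
    (PT_pH c hp hd)) (PT_natCast (PT_Lz c hd))) (PT_natCast (PT_L c hd))) (PT_kH c hk hd)))
    (PT_ratDiv (PT_ratMul (PT.const _) (PT_ratPowConst (PT_natCast (PT_Lz c hd)) 2))
      (PT.const 2))) (PT.const _)

theorem PT_Tc (hd : PT ∅ d) : PT ∅ fun a => c.Tc (d a) :=
  PT_ratSub (PT_ratSub (PT_ratMul (PT.const 2) (PT_Tq c hd)) (PT_tq c hd)) (PT_bq c hd)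

theorem PT_ebase (hp : PT ∅ fun n : Un => c.pHat n.v) (hk : PT ∅ fun n : Un => c.kHat n.v)
    (hd : PT ∅ d) : PT ∅ fun a => c.ebase (d a) :=
  PT_ratSub (PT_ratMul (PT_natCast (PT_NN hd)) (PT_ratAdd (PT_E0 c hp hk hd) (PT.const _)))
    (PT_ratMul (PT_ratMul (PT.const 2)
      (PT_natCast (PT_nC (PT_nE hd) (PT_nD hd) (PBd_nE hd) (PBd_nD hd)))) (PT_Tc c hd))

theorem PT_sig (hp : PT ∅ fun n : Un => c.pHat n.v) (hd : PT ∅ d) : PT ∅ fun a => c.sig (d a) :=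
  PT_ratDiv (PT_ratPowConst (PT_ratDiv (PT.const 9) (PT_ratMul (PT.const 68)
    (PT_natCast (PT_nW (PT_nE hd) (PT_nD hd))))) 2)
    (PT_ratMul (PT_ratMul (PT_ratMul (PT_lam c hp hd) (PT_ratPowConst (PT_natCast (PT_p c hd)) _))
      (PT_ratPowConst (PT_natCast (PT_nu hd)) 2))
      (PT_ratAdd (PT_ratMul (PT.const 3) (PT_natCast (PT_nT hd))) (PT.const 1)))

end PTQ

open PTQ in
theorem pt_main (c : Cst) (hp : PT ∅ fun n : Un => c.pHat n.v) (hk : PT ∅ fun n : Un => c.kHat n.v)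
    (V : Word → Verifier) (hV : PolyTime fun x => (V x).code) :
    PolyTime fun x => (c.inst (V x).cd).code := by
  have hid : PT ∅ fun d : CD => d := PT.id
  refine pt_glue c.inst (pt_nuclei c hp) (PT.mkUn (PT_NN hid) (PBd_NN hid)) ?_ ?_ V hV
  · exact PT_ratMul (PT_ratPowConst (PT_lam c hp hid) 2)
      (PT_ratAdd (PT_ebase c hp hk hid) (PT_ratMul (PT.const _) (PT_sig c hp hid)))
  · exact PT_ratMul (PT_ratPowConst (PT_lam c hp hid) 2)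
      (PT_ratAdd (PT_ebase c hp hk hid) (PT_ratMul (PT.const _) (PT_sig c hp hid)))

end Vale.Agent.P370Z
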