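import Vale.Agent.P370Z.PT.Rat

/-!
# P370: the data of the circuit Hamiltonian and of the grid are computable in polynomial time
-/

namespace Vale.Agent.P370Z

open Vale.Agent.Lib.PolyTime (PT PBd Un Raw)
open Vale.Agent.P315.H155

namespace PTQ

variable {α : Type*} [Vale.Agent.Lib.PolyTime.Enc α]

/-! ### The grid -/

section Grid

variable {e d t i j : α → ℕ}

@[fun_prop]
theorem PT_nI (he : PT ∅ e) (hd : PT ∅ d) : PT ∅ fun a => nI (e a) (d a) := by
  unfold nI; fun_prop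

@[fun_prop]
theorem PBd_nI (he : PBd e) (hd : PBd d) : PBd fun a => nI (e a) (d a) := by
  unfold nI; fun_prop

@[fun_prop]
theorem PT_nK (he : PT ∅ e) (hd : PT ∅ d) : PT ∅ fun a => nK (e a) (d a) := by
  unfold nK; fun_prop

@[fun_prop]
theorem PBd_nK (he : PBd e) (hd : PBd d) : PBd fun a => nK (e a) (d a) := by
  unfold nK; fun_prop

@[fun_prop]
theorem PT_nW (he : PT ∅ e) (hd : PT ∅ d) : PT ∅ fun a => nW (e a) (d a) := by
  unfold nW; fun_prop

@[fun_prop]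
theorem PBd_nW (he : PBd e) (hd : PBd d) : PBd fun a => nW (e a) (d a) := by
  unfold nW; fun_prop

@[fun_prop]
theorem PT_isMain (he : PT ∅ e) (hd : PT ∅ d) (ht : PT ∅ t) :
    PT ∅ fun a => decide (isMain (e a) (d a) (t a)) := by
  have h : PT ∅ fun a => decide (e a ≤ t a ∧ t a < e a + d a) := by fun_prop
  exact h.congr fun _ => decide_eq_decide.2 Iff.rfl

@[fun_prop]
theorem PT_wlo (he : PT ∅ e) (hd : PT ∅ d) (ht : PT ∅ t) :
    PT ∅ fun a => wlo (e a) (d a) (t a) := by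
  unfold wlo; fun_prop

@[fun_prop]
theorem PT_whi (he : PT ∅ e) (hd : PT ∅ d) (ht : PT ∅ t) :
    PT ∅ fun a => whi (e a) (d a) (t a) := by
  unfold whi; fun_prop

@[fun_prop]
theorem PT_hAct (he : PT ∅ e) (hd : PT ∅ d) (hi : PT ∅ i) (hj : PT ∅ j) :
    PT ∅ fun a => decide (hAct (e a) (d a) (i a) (j a)) := by
  have h : PT ∅ fun a => decide (j a % 2 = 1 ∧ e a ≤ j a / 2 ∧ j a / 2 < 2 * e a + d a ∧
      wlo (e a) (d a) (j a / 2) ≤ i a ∧ i a ≤ whi (e a) (d a) (j a / 2)) := by fun_prop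
  exact h.congr fun _ => decide_eq_decide.2 Iff.rfl

@[fun_prop]
theorem PT_wdeg (he : PT ∅ e) (hd : PT ∅ d) (ht : PT ∅ t) (hi : PT ∅ i) :
    PT ∅ fun a => wdeg (e a) (d a) (t a) (i a) := by
  unfold wdeg; fun_prop

@[fun_prop]
theorem PT_nC (he : PT ∅ e) (hd : PT ∅ d) (he' : PBd e) (hd' : PBd d) :
    PT ∅ fun a => nC (e a) (d a) := by
  unfold nC
  have h1 : PBd fun a => 2 * nI (e a) (d a) := by fun_prop
  refine PT.natSumRange (by fun_prop) h1 ?_
  refine PT.natSumRange (k := fun p : α × ℕ => 2 * nI (e p.1) (d p.1)) (by fun_prop)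
    (h1.comp (A := ∅) PT.fst') ?_
  fun_prop

@[fun_prop]
theorem PBd_nC (he' : PBd e) (hd' : PBd d) : PBd fun a => nC (e a) (d a) := by
  unfold nC
  have h1 : PBd fun a => 2 * nI (e a) (d a) := by fun_prop
  refine PBd_sumRange h1 h1 fun a i _ => ?_
  have := Finset.sum_le_card_nsmul (Finset.range (2 * nI (e a) (d a)))
    (fun j => if hAct (e a) (d a) i j ∧ hAct (e a) (d a) j i then 1 else 0) 1
    fun j _ => by split_ifs <;> omega
  simpa using this

end Grid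

/-! ### Sparse vectors -/

@[fun_prop]
theorem PT_val {v : α → SV} {k : α → ℕ} (hv : PT ∅ v) (hk : PT ∅ k) :
    PT ∅ fun a => (v a).val (k a) := by
  unfold SV.val; fun_prop

@[fun_prop]
theorem PT_partner {v : α → SV} (hv : PT ∅ v) : PT ∅ fun a => (v a).partner := by
  unfold SV.partner; fun_prop

@[fun_prop]
theorem PT_svSize {v : α → SV} (hv : PT ∅ v) : PT ∅ fun a => (v a).size := by
  unfold SV.size; fun_prop

@[fun_prop]
theorem PT_one {i : α → ℕ} {c : α → ℤ} (hi : PT ∅ i) (hc : PT ∅ c) :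
    PT ∅ fun a => SV.one (i a) (c a) := by
  unfold SV.one; fun_prop

/-! ### The circuit -/

section CD

variable {d : α → CD} {s s' q g k : α → ℕ}

@[fun_prop]
theorem PT_w (hd : PT ∅ d) : PT ∅ fun a => (d a).w := by
  unfold CD.w; fun_prop

@[fun_prop]
theorem PBd_w (hd : PT ∅ d) : PBd fun a => (d a).w := by
  unfold CD.w; exact PBd_unVal (by fun_prop)

@[fun_prop]
theorem PT_n (hd : PT ∅ d) : PT ∅ fun a => (d a).n := by
  unfold CD.n; fun_prop

@[fun_prop]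
theorem PBd_n (hd : PT ∅ d) : PBd fun a => (d a).n := by
  unfold CD.n
  exact (PBd_unVal (by fun_prop)).add (PBd_unVal (by fun_prop))

@[fun_prop]
theorem PT_out (hd : PT ∅ d) : PT ∅ fun a => (d a).out := by
  unfold CD.out; fun_prop

@[fun_prop]
theorem PT_steps (hd : PT ∅ d) : PT ∅ fun a => (d a).steps := by
  unfold CD.steps; fun_prop

@[fun_prop]
theorem PT_nT (hd : PT ∅ d) : PT ∅ fun a => (d a).nT := by
  unfold CD.nT; fun_prop

@[fun_prop]
theorem PBd_nT (hd : PT ∅ d) : PBd fun a => (d a).nT := PBd_length (PT_steps hd)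

@[fun_prop]
theorem PT_dC (hd : PT ∅ d) : PT ∅ fun a => (d a).dC := by
  unfold CD.dC; fun_prop

@[fun_prop]
theorem PBd_dC (hd : PT ∅ d) : PBd fun a => (d a).dC :=
  ((PBd.const 5).mul (PBd_nT hd)).add (PBd.const 1)

@[fun_prop]
theorem PT_nq (hd : PT ∅ d) : PT ∅ fun a => (d a).nq := by
  unfold CD.nq; fun_prop

@[fun_prop]
theorem PBd_nq (hd : PT ∅ d) : PBd fun a => (d a).nq := (PBd_n hd).add (PBd.const 1)

@[fun_prop]
theorem PT_nD (hd : PT ∅ d) : PT ∅ fun a => (d a).nD := by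
  unfold CD.nD; fun_prop

@[fun_prop]
theorem PBd_nD (hd : PT ∅ d) : PBd fun a => (d a).nD :=
  (PBd_dC hd).add ((PBd.const 2).mul (PBd_nq hd))

@[fun_prop]
theorem PT_qi (hd : PT ∅ d) (hq : PT ∅ q) (hs : PT ∅ s) : PT ∅ fun a => (d a).qi (q a) (s a) := by
  unfold CD.qi; fun_prop

@[fun_prop]
theorem PT_JJ (hd : PT ∅ d) : PT ∅ fun a => (d a).JJ := by
  unfold CD.JJ; fun_prop

@[fun_prop]
theorem PBd_JJ (hd : PT ∅ d) : PBd fun a => (d a).JJ :=
  (PBd.const 1000).mul ((PBd_nT hd).add (PBd.const 1))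

attribute [local irreducible] CD.JJ CD.nT CD.dC CD.nq CD.nD CD.steps CD.qi

@[fun_prop]
theorem PT_qq (hd : PT ∅ d) : PT ∅ fun a => (d a).qq := by
  unfold CD.qq; fun_prop

@[fun_prop]
theorem PT_gv (hd : PT ∅ d) (hg : PT ∅ g) : PT ∅ fun a => (d a).gv (g a) := by
  unfold CD.gv; fun_prop

@[fun_prop]
theorem PT_gateEdge (hd : PT ∅ d) (hs : PT ∅ s) (hq : PT ∅ q) (hg : PT ∅ g) :
    PT ∅ fun a => (d a).gateEdge (s a) (q a) (g a) := by
  unfold CD.gateEdge; fun_prop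

@[fun_prop]
theorem PT_edge (hd : PT ∅ d) (hs : PT ∅ s) (hs' : PT ∅ s') :
    PT ∅ fun a => (d a).edge (s a) (s' a) := by
  unfold CD.edge; fun_prop

@[fun_prop]
theorem PT_stepTerms {st : α → ℕ × ℕ × ℕ × ℕ} (hd : PT ∅ d) (hs : PT ∅ s) (hst : PT ∅ st) :
    PT ∅ fun a => (d a).stepTerms (s a) (st a) := by
  unfold CD.stepTerms; fun_prop

theorem pt_base : PT ∅ fun d : CD => d.base := by
  have hid : PT ∅ fun d : CD => d := PT.id
  have h1 : PT ∅ fun d : CD =>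
      (List.range d.nT).flatMap fun t => d.stepTerms t (d.steps.getD t (0, 0, 0, 0)) := by
    refine PT.flatMap (PT.range (PT_nT hid) (PBd_nT hid)) ?_
    fun_prop
  have h2 : PT ∅ fun d : CD =>
      (List.range d.2.1.v).map fun j => (SV.one 0 d.JJ, SV.one (d.qi (d.w + j) 1) 1) := by
    refine PT.map (PT.range (by fun_prop) (PBd_unVal (by fun_prop))) ?_
    fun_prop
  have h3 : PT ∅ fun d : CD => [(SV.one (5 * d.nT) 1, SV.one (d.qi d.out 0) 1)] := by
    fun_prop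
  have h4 : PT ∅ fun d : CD => (List.range d.dC).flatMap fun s =>
      (List.range d.dC).map fun s' => (SV.one s 1, SV.one s' 1) := by
    refine PT.flatMap (PT.range (PT_dC hid) (PBd_dC hid)) ?_
    refine PT.map (l := fun p : CD × ℕ => List.range p.1.dC)
      (PT.range (PT_dC PT.fst') (PBd_dC PT.fst')) ?_
    fun_prop
  have h5 : PT ∅ fun d : CD => (List.range d.nq).flatMap fun q =>
      [(SV.one (d.qi q 0) 1, SV.one (d.qi q 0) 1), (SV.one (d.qi q 0) 1, SV.one (d.qi q 1) 1),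
        (SV.one (d.qi q 1) 1, SV.one (d.qi q 0) 1),
        (SV.one (d.qi q 1) 1, SV.one (d.qi q 1) 1)] := by
    refine PT.flatMap (PT.range (PT_nq hid) (PBd_nq hid)) ?_
    fun_prop
  exact (((h1.append h2).append h3).append h4).append h5

@[fun_prop]
theorem PT_base (hd : PT ∅ d) : PT ∅ fun a => (d a).base := pt_base.comp hd

attribute [local irreducible] CD.base CD.qq

theorem JJ_pos (d : CD) : 1 ≤ d.JJ := by unfold CD.JJ; omega

theorem qq_le (d : CD) : d.qq ≤ d.JJ := by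
  unfold CD.qq
  have : Nat.sqrt (2 * d.JJ ^ 2) ≤ 2 * d.JJ := by
    have h : Nat.sqrt (2 * d.JJ ^ 2) ≤ Nat.sqrt ((2 * d.JJ) ^ 2) :=
      Nat.sqrt_le_sqrt (by nlinarith)
    rwa [Nat.sqrt_eq'] at h
  omega

theorem gv_bound (d : CD) (g : ℕ) :
    (d.gv g).1.natAbs + (d.gv g).2.1.natAbs ≤ 2 * d.JJ ∧ (d.gv g).2.2.natAbs = 1 := by
  have h1 := JJ_pos d
  have h2 := qq_le d
  unfold CD.gv
  split_ifs <;> simp <;> omega

theorem size_le (d : CD) : ∀ c ∈ d.base, c.1.size + c.2.size ≤ 4 * d.JJ := by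
  have h1 := JJ_pos d
  have hg : ∀ s q g, ∀ c ∈ d.gateEdge s q g, c.1.size + c.2.size ≤ 4 * d.JJ := by
    intro s q g c hc
    obtain ⟨h2, h3⟩ := gv_bound d g
    simp only [CD.gateEdge, List.mem_cons, List.not_mem_nil, or_false] at hc
    rcases hc with rfl | rfl
    · simp only [SV.size, Int.natAbs_neg, Int.natAbs_natCast]
      omega
    · simp only [SV.size, Int.natAbs_neg, Int.natAbs_natCast, Int.natAbs_mul, h3]
      omega
  intro c hc
  simp only [CD.base, List.mem_append, List.mem_flatMap, List.mem_map, CD.stepTerms,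
    List.mem_cons, List.not_mem_nil, or_false] at hc
  rcases hc with (((⟨t, -, (h | h) | h⟩ | ⟨j, -, rfl⟩) | rfl) | ⟨s, -, s', -, rfl⟩) | ⟨q, -, h⟩
  · rcases h with rfl | rfl | rfl | rfl | rfl | rfl | rfl | rfl <;>
      simp [SV.size, SV.one, CD.edge] <;> omega
  · exact hg _ _ _ c h
  · exact hg _ _ _ c h
  · simp [SV.size, SV.one]; omega
  · simp [SV.size, SV.one]; omega
  · simp [SV.size, SV.one]; omega
  · rcases h with rfl | rfl | rfl | rfl <;> simp [SV.size, SV.one] <;> omega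

@[fun_prop]
theorem PT_nu0 (hd : PT ∅ d) : PT ∅ fun a => (d a).nu0 := by
  unfold CD.nu0; fun_prop

@[fun_prop]
theorem PBd_nu0 (hd : PT ∅ d) : PBd fun a => (d a).nu0 := by
  unfold CD.nu0
  refine ((PBd.const 2).mul ?_).add (PBd.const 1)
  exact PBd_sumList (f := fun _ (c : SV × SV) => c.1.size + c.2.size) (PBd_length (PT_base hd))
    ((PBd.const 4).mul (PBd_JJ hd)) fun a => size_le (d a)

attribute [local irreducible] CD.nu0

@[fun_prop]
theorem PT_nu (hd : PT ∅ d) : PT ∅ fun a => (d a).nu := by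
  unfold CD.nu; fun_prop

@[fun_prop]
theorem PBd_nu (hd : PT ∅ d) : PBd fun a => (d a).nu := (PBd_nu0 hd).pow 2

attribute [local irreducible] CD.nu

@[fun_prop]
theorem PT_diagU (hd : PT ∅ d) (hk : PT ∅ k) : PT ∅ fun a => (d a).diagU (k a) := by
  unfold CD.diagU; fun_prop

@[fun_prop]
theorem PT_diagW (hd : PT ∅ d) (hk : PT ∅ k) : PT ∅ fun a => (d a).diagW (k a) := by
  unfold CD.diagW; fun_prop

attribute [local irreducible] CD.diagU CD.diagW

theorem pt_terms : PT ∅ fun d : CD => d.terms := by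
  have hid : PT ∅ fun d : CD => d := PT.id
  have h1 : PT ∅ fun d : CD => d.base.map fun c => (c.1.partner, SV.zero) := by fun_prop
  have h2 : PT ∅ fun d : CD => d.base.map fun c => (SV.zero, c.2.partner) := by fun_prop
  have h3 : PT ∅ fun d : CD => (List.range d.nD).flatMap fun k =>
      List.replicate (d.nu - d.diagU k) (SV.one k 1, SV.zero) := by
    refine PT.flatMap (PT.range (PT_nD hid) (PBd_nD hid)) ?_
    exact PT.replicate (by fun_prop) (PBd_sub (PBd_nu PT.fst')) (by fun_prop)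
  have h4 : PT ∅ fun d : CD => (List.range d.nD).flatMap fun k =>
      List.replicate (d.nu - d.diagW k) (SV.zero, SV.one k 1) := by
    refine PT.flatMap (PT.range (PT_nD hid) (PBd_nD hid)) ?_
    exact PT.replicate (by fun_prop) (PBd_sub (PBd_nu PT.fst')) (by fun_prop)
  unfold CD.terms
  exact (((pt_base.append h1).append h2).append h3).append h4

@[fun_prop]
theorem PT_terms (hd : PT ∅ d) : PT ∅ fun a => (d a).terms := pt_terms.comp hd

@[fun_prop]
theorem PT_nE (hd : PT ∅ d) : PT ∅ fun a => (d a).nE := (PT_terms hd).length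

@[fun_prop]
theorem PBd_nE (hd : PT ∅ d) : PBd fun a => (d a).nE := PBd_length (PT_terms hd)

attribute [local irreducible] CD.terms CD.nE

@[fun_prop]
theorem PT_Uq (hd : PT ∅ d) (hs : PT ∅ s) (hk : PT ∅ k) : PT ∅ fun a => (d a).Uq (s a) (k a) := by
  unfold CD.Uq; fun_prop

@[fun_prop]
theorem PT_Wq (hd : PT ∅ d) (hs : PT ∅ s) (hk : PT ∅ k) : PT ∅ fun a => (d a).Wq (s a) (k a) := by
  unfold CD.Wq; fun_prop

@[fun_prop]
theorem PT_NN (hd : PT ∅ d) : PT ∅ fun a => (d a).NN :=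
  ((PT.const 2).mul (PT_nC (PT_nE hd) (PT_nD hd) (PBd_nE hd) (PBd_nD hd))).add
    ((PT_nq hd).add (PT.const 1))

@[fun_prop]
theorem PBd_NN (hd : PT ∅ d) : PBd fun a => (d a).NN :=
  ((PBd.const 2).mul (PBd_nC (PBd_nE hd) (PBd_nD hd))).add ((PBd_nq hd).add (PBd.const 1))

attribute [local irreducible] CD.NN

@[fun_prop]
theorem PT_SS (hd : PT ∅ d) : PT ∅ fun a => (d a).SS := by
  unfold CD.SS; fun_prop

@[fun_prop]
theorem PBd_SS (hd : PT ∅ d) : PBd fun a => (d a).SS :=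
  ((((((PBd_NN hd).add (PBd_nD hd)).add (PBd_nE hd)).add
    ((PBd_nK (PBd_nE hd) (PBd_nD hd)).pow 2)).add (PBd_nu hd)).add (PBd_nT hd)).add (PBd.const 10)

end CD

end PTQ

open PTQ in
theorem pt_cd : (PT ∅ fun d : CD => Un.mk d.SS) ∧ (PT ∅ fun d : CD => Un.mk d.NN) ∧
    (PT ∅ fun d : CD => Un.mk d.nE) ∧ (PT ∅ fun d : CD => Un.mk d.nD) ∧
    (PT ∅ fun d : CD => Un.mk d.nu) ∧ (PT ∅ fun d : CD => Un.mk d.nT) ∧
    (PT ∅ fun d : CD => Un.mk (nC d.nE d.nD)) ∧
    (PT ∅ fun q : CD × ℕ × ℕ => q.1.Uq q.2.1 q.2.2) ∧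
    (PT ∅ fun q : CD × ℕ × ℕ => q.1.Wq q.2.1 q.2.2) := by
  have hid : PT ∅ fun d : CD => d := PT.id
  exact ⟨PT.mkUn (PT_SS hid) (PBd_SS hid), PT.mkUn (PT_NN hid) (PBd_NN hid),
    PT.mkUn (PT_nE hid) (PBd_nE hid), PT.mkUn (PT_nD hid) (PBd_nD hid),
    PT.mkUn (PT_nu hid) (PBd_nu hid), PT.mkUn (PT_nT hid) (PBd_nT hid),
    PT.mkUn (PT_nC (PT_nE hid) (PT_nD hid) (PBd_nE hid) (PBd_nD hid))
      (PBd_nC (PBd_nE hid) (PBd_nD hid)),
    PT_Uq PT.fst' PT.snd'.fst PT.snd'.snd, PT_Wq PT.fst' PT.snd'.fst PT.snd'.snd⟩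

end Vale.Agent.P370Z
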