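import Vale.Agent.P338.R3.H900.EncInt
import Vale.Agent.P370Z.Red

/-! The code of a rational number: numerator and denominator in lowest terms. -/

namespace Vale.Agent.P370Z

open Vale.Agent.Lib.PolyTime

instance encRat : Enc ℚ := ⟨fun q => enc (q.num, q.den)⟩

theorem enc_rat (q : ℚ) : enc q = enc (q.num, q.den) := rfl

end Vale.Agent.P370Z
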