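import Vale.Agent.P370Z.PT.CDs
import Vale.Agent.P370Z.CH.Comb

/-!
# P370: the potential is computable in polynomial time
-/

namespace Vale.Agent.P370Z

open Vale.Agent.Lib.PolyTime (PT PBd Un Raw Enc)
open Vale.Agent.P315.H155

namespace PTQ

variable {α β : Type*} [Enc α] [Enc β]

/-! ### Level functions -/

theorem PT_finsetSum (s : Finset ℕ) {f : ℕ → α → ℚ} (hf : ∀ k, PT ∅ (f k)) :
    PT ∅ fun a => ∑ k ∈ s, f k a := by
  induction s using Finset.induction_on with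
  | empty => exact (PT.const 0).congr fun _ => by simp
  | insert k s hk ih => exact (PT_ratAdd (hf k) ih).congr fun _ => by rw [Finset.sum_insert hk]

@[fun_prop]
theorem PT_betaD (n : ℕ) {t : α → ℚ} (ht : PT ∅ t) : PT ∅ fun a => betaD n (t a) := by
  unfold betaD
  exact PT_finsetSum _ fun k => PT_ratMul (PT.const _) (PT_ratPowConst ht _)

theorem PT_levD (n : ℕ) {g : α → ℤ → ℚ} {x : α → ℚ} (hg : PT ∅ fun p : α × ℤ => g p.1 p.2)
    (hx : PT ∅ x) : PT ∅ fun a => levD n (g a) (x a) := by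
  have h0 : PT ∅ fun a => g a ⌊x a⌋ := hg.comp (PT.id.pair (PT_floor hx))
  have h1 : PT ∅ fun a => g a (⌊x a⌋ + 1) :=
    hg.comp (PT.id.pair ((PT_floor hx).intAdd (PT.const 1)))
  have h2 : PT ∅ fun a => if n = 0 then g a ⌊x a⌋ else 0 := by
    by_cases h : n = 0
    · simpa [h] using h0
    · simpa [h] using PT.const (0 : ℚ)
  exact PT_ratAdd h2 (PT_ratMul (PT_ratSub h1 h0) (PT_betaD n (PT_fract hx)))

theorem PT_levD2 (n m : ℕ) {G : α → ℤ → ℤ → ℚ} {x y : α → ℚ}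
    (hG : PT ∅ fun p : α × ℤ × ℤ => G p.1 p.2.1 p.2.2) (hx : PT ∅ x) (hy : PT ∅ y) :
    PT ∅ fun a => levD2 n m (G a) (x a) (y a) := by
  unfold levD2
  refine PT_levD n (g := fun a i => levD m (G a i) (y a)) ?_ hx
  exact PT_levD m (g := fun (p : α × ℤ) => G p.1 p.2) (x := fun p : α × ℤ => y p.1)
    (hG.comp (PT.fst'.fst.pair (PT.fst'.snd.pair PT.snd'))) (hy.comp PT.fst')

/-! ### Families of chains -/

/-- A family of chains with polynomial time data and polynomially bounded levels. -/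
structure Fam (ch : α → ChD) : Prop where
  K : PT ∅ fun a => (ch a).K
  Kb : PBd fun a => (ch a).K
  a : PT ∅ fun a => (ch a).a
  rho : PT ∅ fun p : α × ℕ => (ch p.1).ρ p.2
  s : PT ∅ fun p : α × ℕ => (ch p.1).s p.2
  R : PT ∅ fun p : α × ℕ => (ch p.1).R p.2
  bd : ∃ b : α → ℕ, PBd b ∧ ∀ a k, (ch a).ρ k ≤ b a ∧ (ch a).s k ≤ b a

namespace Fam

variable {ch : α → ChD}

theorem comp (h : Fam ch) {f : β → α} (hf : PT ∅ f) : Fam fun b => ch (f b) := by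
  obtain ⟨b, hb, hb'⟩ := h.bd
  have hp : PT ∅ fun p : β × ℕ => (f p.1, p.2) := (hf.comp PT.fst').pair PT.snd'
  exact ⟨h.K.comp hf, h.Kb.comp hf, h.a.comp hf, h.rho.comp hp, h.s.comp hp, h.R.comp hp,
    fun x => b (f x), hb.comp hf, fun x k => hb' (f x) k⟩

theorem fst {γ : Type*} [Enc γ] (h : Fam ch) : Fam fun p : α × γ => ch p.1 := h.comp PT.fst'

theorem rho' (h : Fam ch) {j : α → ℕ} (hj : PT ∅ j) : PT ∅ fun a => (ch a).ρ (j a) :=
  h.rho.comp (PT.id.pair hj)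

theorem s' (h : Fam ch) {j : α → ℕ} (hj : PT ∅ j) : PT ∅ fun a => (ch a).s (j a) :=
  h.s.comp (PT.id.pair hj)

theorem R' (h : Fam ch) {j : α → ℕ} (hj : PT ∅ j) : PT ∅ fun a => (ch a).R (j a) :=
  h.R.comp (PT.id.pair hj)

theorem room (h : Fam ch) {j : α → ℕ} (hj : PT ∅ j) :
    PT ∅ fun a => (ch a).a * 4 ^ (ch a).ρ (j a) := by
  obtain ⟨b, hb, hb'⟩ := h.bd
  exact h.a.mul (PT.pow (PT.const 4) (h.rho' hj) (hb.mono fun a => (hb' a _).1))

theorem pl (h : Fam ch) {j : α → ℕ} (hj : PT ∅ j) (hjb : PBd j) :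
    PT ∅ fun a => (ch a).pl (j a) := by
  unfold ChD.pl
  refine (PT.const 2).add (PT.natSumRange hj hjb ?_)
  have g : Fam fun p : α × ℕ => ch p.1 := h.fst
  exact (((g.R' PT.snd').add ((g.s' PT.snd').sub (g.rho' PT.snd'))).add (g.room PT.snd')).add
    ((g.s' (PT.snd'.add (PT.const 1))).sub (g.rho' PT.snd'))

theorem pr (h : Fam ch) {j : α → ℕ} (hj : PT ∅ j) (hjb : PBd j) :
    PT ∅ fun a => (ch a).pr (j a) := (h.pl hj hjb).add (h.R' hj)

theorem l (h : Fam ch) {j : α → ℕ} (hj : PT ∅ j) (hjb : PBd j) :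
    PT ∅ fun a => (ch a).l (j a) := (h.pr hj hjb).add ((h.s' hj).sub (h.rho' hj))

theorem r (h : Fam ch) {j : α → ℕ} (hj : PT ∅ j) (hjb : PBd j) :
    PT ∅ fun a => (ch a).r (j a) := (h.l hj hjb).add (h.room hj)

theorem len (h : Fam ch) : PT ∅ fun a => (ch a).len := (h.pr h.K h.Kb).add (PT.const 2)

theorem plC (h : Fam ch) {j : α → ℕ} (hj : PT ∅ j) :
    PT ∅ fun a => (ch a).pl (min (j a) (ch a).K) :=
  h.pl (hj.min h.K) (PBd_min_right h.Kb)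

theorem idx (h : Fam ch) {i : α → ℤ} (hi : PT ∅ i) : PT ∅ fun a => (ch a).idx (i a) := by
  have g : Fam fun p : α × ℕ => ch p.1 := h.fst
  have h1 : PT ∅ fun a => ∑ j ∈ Finset.range (ch a).K,
      if (((ch a).pl (min (j + 1) (ch a).K) : ℕ) : ℤ) ≤ i a then 1 else 0 :=
    PT.natSumRange h.K h.Kb (PT.ite (PT.intLe (g.plC (PT.snd'.add (PT.const 1))).natCast
      (hi.comp PT.fst')) (PT.const 1) (PT.const 0))
  refine h1.congr fun a => Finset.sum_congr rfl fun j hj => ?_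
  rw [min_eq_left (Finset.mem_range.1 hj)]

theorem idxb (h : Fam ch) (i : α → ℤ) : PBd fun a => (ch a).idx (i a) :=
  h.Kb.mono fun a => ((ch a).idx_spec (i a)).1

theorem zn (h : Fam ch) {i : α → ℤ} (hi : PT ∅ i) : PT ∅ fun a => (ch a).zn (i a) := by
  have g : Fam fun p : α × ℕ => ch p.1 := h.fst
  have h1 : PT ∅ fun a => ∑ j ∈ Finset.range ((ch a).K + 1),
      if (((ch a).pl (min j (ch a).K) : ℕ) : ℤ) + 1 ≤ i a then 1 else 0 :=
    PT.natSumRange (h.K.add (PT.const 1)) (h.Kb.add (PBd.const 1))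
      (PT.ite (PT.intLe ((g.plC PT.snd').natCast.intAdd (PT.const 1))
      (hi.comp PT.fst')) (PT.const 1) (PT.const 0))
  refine h1.congr fun a => Finset.sum_congr rfl fun j hj => ?_
  rw [min_eq_left (Nat.lt_succ_iff.1 (Finset.mem_range.1 hj))]

theorem sig (h : Fam ch) {i : α → ℤ} (hi : PT ∅ i) : PT ∅ fun a => (ch a).sig (i a) := by
  unfold ChD.sig
  have h1 := h.idx hi
  have h2 := h.idxb i
  exact PT.ite (PT.decide_or (h1.eqNat h.K) (hi.intLe (h.pr h1 h2).natCast)) (h.s' h1)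
    (PT.ite (hi.intLe (h.l h1 h2).natCast)
      ((h.rho' h1).add ((h.l h1 h2).natCast.intSub hi).toNat)
      ((h.rho' h1).add (hi.intSub (h.r h1 h2).natCast).toNat))

theorem sigb (h : Fam ch) (i : α → ℤ) : PBd fun a => (ch a).sig (i a) := by
  obtain ⟨b, hb, hb'⟩ := h.bd
  refine (hb.add hb).mono fun a => ?_
  obtain ⟨-, -, h3⟩ := (ch a).idx_spec (i a)
  have h4 := hb' a ((ch a).idx (i a))
  have h5 := hb' a ((ch a).idx (i a) + 1)
  have h6 := (ch a).l_eq ((ch a).idx (i a))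
  have h7 := (ch a).pl_succ ((ch a).idx (i a))
  unfold ChD.sig
  split_ifs with c1 c2
  · omega
  · omega
  · omega

theorem phi (h : Fam ch) : PT ∅ fun p : α × ℤ => ((ch p.1).phi p.2 : ℚ) :=
  PT_ratPow (PT.const _) (h.fst.sig PT.snd') (h.fst.sigb _)

theorem eta (h : Fam ch) : PT ∅ fun p : α × ℤ => ((ch p.1).eta p.2 : ℚ) := by
  unfold ChD.eta
  exact PT.ite (PT.decide_and ((PT.const 1).intLe PT.snd')
    ((PT.snd'.intAdd (PT.const 1)).intLe h.fst.len.natCast)) (PT.const 1) (PT.const 0)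

theorem wbar (h : Fam ch) {w : α → ℕ → ℕ → ℚ}
    (hw : PT ∅ fun p : α × ℕ × ℕ => w p.1 p.2.1 p.2.2) :
    PT ∅ fun p : α × ℤ × ℤ => (ch p.1).wbar (w p.1) p.2.1 p.2.2 := by
  unfold ChD.wbar
  have g : Fam fun p : α × ℤ × ℤ => ch p.1 := h.fst
  have h1 := g.zn PT.snd'.fst
  have h2 := g.zn PT.snd'.snd
  exact PT.ite (PT.decide_and (PT.decide_and ((PT.const 1).le h1) (h1.le g.K))
    (PT.decide_and ((PT.const 1).le h2) (h2.le g.K)))
    (hw.comp (PT.fst'.pair ((h1.sub (PT.const 1)).pair (h2.sub (PT.const 1))))) (PT.const 0)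

theorem u0 (h : Fam ch) {x : α → ℚ} (hx : PT ∅ x) : PT ∅ fun a => (ch a).u0 (x a) :=
  PT_ratDiv (PT_levD 2 h.phi hx) (PT_ratMul (PT.const 2) (PT_levD 0 h.phi hx))

theorem u1 (h : Fam ch) {x : α → ℚ} (hx : PT ∅ x) : PT ∅ fun a => (ch a).u1 (x a) :=
  PT_ratDiv (PT_ratSub (PT_ratMul (PT_levD 3 h.phi hx) (PT_levD 0 h.phi hx))
    (PT_ratMul (PT_levD 2 h.phi hx) (PT_levD 1 h.phi hx)))
    (PT_ratMul (PT.const 2) (PT_ratPowConst (PT_levD 0 h.phi hx) 2))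

theorem G0 (h : Fam ch) {w : α → ℕ → ℕ → ℚ} (hw : PT ∅ fun p : α × ℕ × ℕ => w p.1 p.2.1 p.2.2)
    (H : ℕ) {x y : α → ℚ} (hx : PT ∅ x) (hy : PT ∅ y) :
    PT ∅ fun a => G0 (ch a) (w a) H (x a) (y a) :=
  PT_ratSub (PT_ratAdd (PT_ratAdd (h.u0 hx) (h.u0 hy)) (PT_levD2 0 0 (h.wbar hw) hx hy))
    (PT.const _)

theorem dF0 (h : Fam ch) {w : α → ℕ → ℕ → ℚ} (hw : PT ∅ fun p : α × ℕ × ℕ => w p.1 p.2.1 p.2.2)
    (H i : ℕ) {Lc : α → ℕ} (hL : PT ∅ Lc) {x y z : α → ℚ} (hx : PT ∅ x) (hy : PT ∅ y)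
    (hz : PT ∅ z) : PT ∅ fun a => dF0 (ch a) (w a) H (Lc a) i (x a) (y a) (z a) := by
  have hzeta : PT ∅ fun p : α × ℤ => (zeta (Lc p.1) p.2 : ℚ) := by
    unfold zeta
    exact PT.ite ((PT_intAbs PT.snd').intLe (hL.comp PT.fst').natCast) (PT.const 1) (PT.const 0)
  have hG := h.G0 hw H hx hy
  unfold Vale.Agent.P370Z.dF0
  by_cases h0 : i = 0
  · simp only [if_pos h0]
    exact PT_ratMul (PT_ratMul (PT_levD 0 hzeta hz) (PT_levD 0 h.eta hy))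
      (PT_ratAdd (PT_ratMul (PT_levD 1 h.eta hx) hG) (PT_ratMul (PT_levD 0 h.eta hx)
        (PT_ratAdd (h.u1 hx) (PT_levD2 1 0 (h.wbar hw) hx hy))))
  by_cases h1 : i = 1
  · simp only [if_neg h0, if_pos h1]
    exact PT_ratMul (PT_ratMul (PT_levD 0 hzeta hz) (PT_levD 0 h.eta hx))
      (PT_ratAdd (PT_ratMul (PT_levD 1 h.eta hy) hG) (PT_ratMul (PT_levD 0 h.eta hy)
        (PT_ratAdd (h.u1 hy) (PT_levD2 0 1 (h.wbar hw) hx hy))))
  · simp only [if_neg h0, if_neg h1]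
    exact PT_ratMul (PT_ratMul (PT_ratMul (PT_levD 1 hzeta hz) (PT_levD 0 h.eta hx))
      (PT_levD 0 h.eta hy)) hG

end Fam

/-! ### The on-site energies -/

section Grid

variable {e d k l : α → ℕ} {U W : α → ℕ → ℕ → ℚ} {T t b : α → ℚ}

theorem PT_negOnePow {k : α → ℕ} (hk : PT ∅ k) : PT ∅ fun a => (-1 : ℚ) ^ k a := by
  refine (PT.ite hk.odd (PT.const (-1 : ℚ)) (PT.const 1)).congr fun a => ?_
  split_ifs with h
  · exact (Nat.odd_iff.2 h).neg_one_pow.symm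
  · exact (Nat.even_iff.2 (by omega)).neg_one_pow.symm

theorem PT_hopG (hT : PT ∅ T) (ht : PT ∅ t) (hk : PT ∅ k) :
    PT ∅ fun a => hopG (T a) (t a) (k a) := PT.ite hk.odd hT ht

theorem PT_lapDiag (he : PT ∅ e) (hT : PT ∅ T) (ht : PT ∅ t) (hk : PT ∅ k) :
    PT ∅ fun a => lapM (e a) (hopG (T a) (t a)) (k a) (k a) := by
  refine (PT_ratAdd (PT.ite ((PT.const 0).lt hk) (PT_hopG hT ht hk) (PT.const 0))
    (PT.ite ((hk.add (PT.const 1)).lt he) (PT_hopG hT ht (hk.add (PT.const 1)))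
      (PT.const 0))).congr fun a => ?_
  simp [lapM]

theorem PT_cpl (he : PT ∅ e) (hd : PT ∅ d)
    (hU : PT ∅ fun p : α × ℕ × ℕ => U p.1 p.2.1 p.2.2)
    (hW : PT ∅ fun p : α × ℕ × ℕ => W p.1 p.2.1 p.2.2) (hk : PT ∅ k) (hl : PT ∅ l) :
    PT ∅ fun a => cpl (e a) (d a) (U a) (W a) (k a) (l a) := by
  unfold cpl
  exact PT.ite (PT.decide_and (PT_isMain he hd hk) (PT_isMain he hd hl))
    (PT.ite (hk.eqNat hl) (PT.const _) (PT.const _))
    (PT.ite (PT_isMain he hd hl)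
      (PT_ratMul (PT.const _) (hU.comp (PT.id.pair (((hk.sub he).sub hd).pair (hl.sub he)))))
      (PT_ratMul (PT.const _) (hW.comp (PT.id.pair (((hl.sub he).sub hd).pair (hk.sub he))))))

theorem PT_wPre (he : PT ∅ e) (hd : PT ∅ d)
    (hU : PT ∅ fun p : α × ℕ × ℕ => U p.1 p.2.1 p.2.2)
    (hW : PT ∅ fun p : α × ℕ × ℕ => W p.1 p.2.1 p.2.2) (hT : PT ∅ T) (ht : PT ∅ t)
    (hb : PT ∅ b) (hk : PT ∅ k) (hl : PT ∅ l) :
    PT ∅ fun a => wPre (e a) (d a) (U a) (W a) (T a) (t a) (b a) (k a) (l a) := by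
  unfold wPre
  have k2 := hk.div (PT.const 2)
  have l2 := hl.div (PT.const 2)
  have k4 := hk.div (PT.const 4)
  have l4 := hl.div (PT.const 4)
  have a1 := PT_hAct he hd k2 l2
  have a2 := PT_hAct he hd l2 k2
  exact PT.ite (PT.decide_and a1 a2)
    (PT_ratSub (PT_ratAdd ht hb) (PT_ratMul (PT_ratMul (PT_ratMul hb (PT_natCast (PT_nW he hd)))
      (PT_cpl he hd hU hW l4 k4)) (PT_negOnePow (((k4.add l4).add hk).add hl))))
    (PT.ite a1 (PT_ratAdd (PT_ratAdd (PT_ratMul (PT.const 2) hT)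
        (PT_ratMul (PT_ratDiv ht (PT.const 2)) (PT_natCast (PT_wdeg he hd l4 k2)))) hb)
      (PT.ite a2 (PT_ratAdd (PT_ratAdd (PT_ratMul (PT.const 2) hT)
        (PT_ratMul (PT_ratDiv ht (PT.const 2)) (PT_natCast (PT_wdeg he hd k4 l2)))) hb)
        (PT_ratMul (PT.const 4) hT)))

theorem PT_wGrid (he : PT ∅ e) (hd : PT ∅ d)
    (hU : PT ∅ fun p : α × ℕ × ℕ => U p.1 p.2.1 p.2.2)
    (hW : PT ∅ fun p : α × ℕ × ℕ => W p.1 p.2.1 p.2.2) (hT : PT ∅ T) (ht : PT ∅ t)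
    (hb : PT ∅ b) (hk : PT ∅ k) (hl : PT ∅ l) :
    PT ∅ fun a => wGrid (e a) (d a) (U a) (W a) (T a) (t a) (b a) (k a) (l a) :=
  PT_ratSub (PT_ratSub (PT_wPre he hd hU hW hT ht hb hk hl) (PT_lapDiag (PT_nK he hd) hT ht hk))
    (PT_lapDiag (PT_nK he hd) hT ht hl)

end Grid

/-! ### The parameters -/

section Par

variable (c : Cst) {d : α → CD}

theorem PT_gp (hd : PT ∅ d) : PT ∅ fun a => c.gp (d a) := (PT_SS hd).natSize.add (PT.const _)

theorem PBd_gp (hd : PT ∅ d) : PBd fun a => c.gp (d a) :=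
  (PBd_size (PT_SS hd)).add (PBd.const _)

theorem PT_p (hd : PT ∅ d) : PT ∅ fun a => c.p (d a) :=
  PT.pow (PT.const 4) (PT_gp c hd) (PBd_gp c hd)

theorem PBd_p (hd : PT ∅ d) : PBd fun a => c.p (d a) :=
  ((PBd_pow_size (PBd_SS hd) 4).mul (PBd.const (4 ^ c.g0))).mono fun a => by
    unfold Cst.p Cst.gp
    rw [pow_add]

attribute [local irreducible] CD.nE CD.nD CD.SS Cst.gp Cst.p nK Cst.k1 Cst.k2 Cst.k3 Cst.km Cst.eT
  Cst.eN Cst.eF

theorem fam_chain (hd : PT ∅ d) : Fam fun a => c.chain (d a) := by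
  have hd' : PT ∅ fun p : α × ℕ => d p.1 := hd.comp PT.fst'
  have hE := PT_nE hd'
  have hD := PT_nD hd'
  have hg := PT_gp c hd'
  have hp := PT_p c hd'
  have hK := PT_nK hE hD
  have j : PT ∅ fun p : α × ℕ => p.2 := PT.snd'
  have j4 : PT ∅ fun p : α × ℕ => decide (p.2 % 4 = 2) := (j.mod (PT.const 4)).eqNat (PT.const 2)
  refine ⟨PT_nK (PT_nE hd) (PT_nD hd), PBd_nK (PBd_nE hd) (PBd_nD hd),
    (PT_p c hd).powConst c.k1, ?_, ?_, ?_,
    fun a => c.gp (d a) * (c.k3 + 6 * c.km + c.eT + c.eN + c.eF),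
    (PBd_gp c hd).mul (PBd.const _), fun a k => ⟨?_, ?_⟩⟩
  · simp only [Cst.chain]
    exact PT.ite (PT_isMain hE hD (j.div (PT.const 4))) (hg.mul (PT.const c.k3)) (PT.const 0)
  · simp only [Cst.chain]
    exact PT.ite (PT.decide_or (j.eqNat (PT.const 0)) (j.eqNat hK)) (hg.mul (PT.const (6 * c.km)))
      (PT.ite j.odd (hg.mul (PT.const c.eT))
        (PT.ite j4 (hg.mul (PT.const c.eN)) (hg.mul (PT.const c.eF))))
  · simp only [Cst.chain]
    exact PT.ite (PT.decide_or (j.eqNat (PT.const 0)) (PT.decide_or (j.eqNat hK) j.odd))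
      (hp.powConst c.k1) (PT.ite j4 (hp.powConst (c.k1 + 1)) (hp.powConst c.k2))
  · simp only [Cst.chain]
    split_ifs
    · exact Nat.mul_le_mul_left _ (by omega)
    · exact Nat.zero_le _
  · simp only [Cst.chain]
    split_ifs <;> exact Nat.mul_le_mul_left _ (by omega)

theorem PT_Tq (hd : PT ∅ d) : PT ∅ fun a => c.Tq (d a) :=
  PT_ratDiv (PT.const 1) (PT_ratMul (PT.const 2) (PT_ratPowConst (PT_natCast (PT_p c hd)) _))

theorem PT_tq (hd : PT ∅ d) : PT ∅ fun a => c.tq (d a) :=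
  PT_ratDiv (PT.const 1) (PT_ratMul (PT.const 2) (PT_ratPowConst (PT_natCast (PT_p c hd)) _))

theorem PT_bq (hd : PT ∅ d) : PT ∅ fun a => c.bq (d a) :=
  PT_ratDiv (PT.const 1) (PT_ratPowConst (PT_natCast (PT_p c hd)) _)

theorem PT_wq (hd : PT ∅ d) : PT ∅ fun p : α × ℕ × ℕ => c.wq (d p.1) p.2.1 p.2.2 := by
  have hd' : PT ∅ fun p : α × ℕ × ℕ => d p.1 := hd.comp PT.fst'
  exact PT_wGrid (U := fun p : α × ℕ × ℕ => (d p.1).Uq) (W := fun p : α × ℕ × ℕ => (d p.1).Wq)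
    (PT_nE hd') (PT_nD hd') (PT_Uq (hd'.comp PT.fst') PT.snd'.fst PT.snd'.snd)
    (PT_Wq (hd'.comp PT.fst') PT.snd'.fst PT.snd'.snd) (PT_Tq c hd') (PT_tq c hd') (PT_bq c hd')
    PT.snd'.fst PT.snd'.snd

theorem PT_L1 (hd : PT ∅ d) : PT ∅ fun a => c.L1 (d a) := (PT_p c hd).powConst _

theorem PBd_L1 (hd : PT ∅ d) : PBd fun a => c.L1 (d a) := (PBd_p c hd).pow _

theorem PT_dF (i : ℕ) (hd : PT ∅ d) {x y z : α → ℚ} (hx : PT ∅ x) (hy : PT ∅ y) (hz : PT ∅ z) :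
    PT ∅ fun a => c.dF (d a) i (x a) (y a) (z a) :=
  (fam_chain c hd).dF0 (w := fun a => c.wq (d a)) (PT_wq c hd) c.H i
    ((PT.const 2).mul (PT_L1 c hd)) hx hy hz

end Par

end PTQ

theorem pt_dF (c : Cst) (i : ℕ) :
    PT ∅ fun q : CD × ℚ × ℚ × ℚ => c.dF q.1 i q.2.1 q.2.2.1 q.2.2.2 :=
  PTQ.PT_dF c i PT.fst' PT.snd'.fst PT.snd'.snd.fst PT.snd'.snd.snd

end Vale.Agent.P370Z
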